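import Mathlib

/-!
A separable space of bounded functions on Cantor sequences with an uncomplemented
subspace that is the closure of an increasing union of finite-dimensional
sup-norm spaces.
-/

namespace Vale.Agent.P124

open Filter Topology
open scoped ENNReal

set_option synthInstance.maxHeartbeats 200000
set_option maxHeartbeats 1000000

/-- Bounded real functions on binary sequences. -/
abbrev Amb : Type := lp (fun _ : ℕ → Bool => ℝ) ∞

/-- A function of the first n bits, as a bounded function. -/
noncomputable def J (n : ℕ) : ((Fin n → Bool) → ℝ) →ₗᵢ[ℝ] Amb where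
  toFun f := ⟨fun γ => f (fun i => γ i), memℓp_infty ⟨‖f‖, by
    rintro _ ⟨γ, rfl⟩; exact norm_le_pi_norm f _⟩⟩
  map_add' f g := by ext γ; rfl
  map_smul' c f := by ext γ; rfl
  norm_map' f := by
    apply le_antisymm
    · refine lp.norm_le_of_forall_le (norm_nonneg f) fun γ => ?_
      exact norm_le_pi_norm f _
    · rw [pi_norm_le_iff_of_nonneg (norm_nonneg _)]
      intro w
      refine le_of_eq_of_le ?_ (lp.norm_apply_le_norm ENNReal.top_ne_zero _
        (fun i => if h : i < n then w ⟨i, h⟩ else false))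
      congr 1
      show f w = f _
      congr 1
      funext i
      simp [i.2]

/-- Extend a finite word by false. -/
def pad {n : ℕ} (w : Fin n → Bool) : ℕ → Bool := fun i => if h : i < n then w ⟨i, h⟩ else false

open Classical in
/-- Indicator of first leaving q, after stage n, at an even offset by a true bit. -/
noncomputable def jump (n : ℕ) (q : ℕ → Bool) : Amb :=
  ⟨fun γ => if ∃ j, (∀ i < n + 2 * j, γ i = q i) ∧ γ (n + 2 * j) = true then 1 else 0,
    memℓp_infty ⟨1, by rintro _ ⟨γ, rfl⟩; dsimp only; split <;> simp⟩⟩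

open Classical in
lemma jump_apply (n : ℕ) (q γ : ℕ → Bool) : (jump n q : (ℕ → Bool) → ℝ) γ =
    if ∃ j, (∀ i < n + 2 * j, γ i = q i) ∧ γ (n + 2 * j) = true then 1 else 0 := rfl

/-- The generators of the separable ambient space. -/
def gens : Set Amb :=
  (⋃ n : ℕ, ⋃ w : Fin n → Bool, {J n (Pi.single w 1)}) ∪
  ⋃ n : ℕ, ⋃ w : Fin n → Bool, {jump n (pad w)}

/-- The separable ambient space. -/
noncomputable def Big : Submodule ℝ Amb := (Submodule.span ℝ gens).topologicalClosure

noncomputable instance instBigGroup : NormedAddCommGroup Big := Submodule.normedAddCommGroup Big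

noncomputable instance instBigSpace : NormedSpace ℝ Big := Submodule.normedSpace Big

instance : IsTopologicalAddGroup Big := SeminormedAddCommGroup.toIsTopologicalAddGroup

instance : ContinuousAdd Big := IsTopologicalAddGroup.toContinuousAdd

instance : ContinuousSMul ℝ Big := IsBoundedSMul.continuousSMul

instance : ContinuousConstSMul ℝ Big := ContinuousSMul.continuousConstSMul

instance : CompleteSpace Big :=
  (Submodule.isClosed_topologicalClosure _).completeSpace_coe

instance : TopologicalSpace.SeparableSpace Big := by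
  have hc : gens.Countable :=
    (Set.countable_iUnion fun n => Set.countable_iUnion fun w => Set.countable_singleton _).union
      (Set.countable_iUnion fun n => Set.countable_iUnion fun w => Set.countable_singleton _)
  have h := (hc.isSeparable.span (R := ℝ)).closure
  rw [← Submodule.topologicalClosure_coe] at h
  exact h.separableSpace

lemma J_mem (n : ℕ) (f : (Fin n → Bool) → ℝ) : J n f ∈ Big := by
  apply Submodule.le_topologicalClosure
  have : f = ∑ w, f w • Pi.single w (1 : ℝ) := by
    funext v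
    simp [Pi.single_apply]
  rw [this, map_sum]
  refine Submodule.sum_mem _ fun w _ => ?_
  rw [map_smul]
  exact Submodule.smul_mem _ _ (Submodule.subset_span
    (Or.inl (Set.mem_iUnion.mpr ⟨n, Set.mem_iUnion.mpr ⟨w, rfl⟩⟩)))

/-- Functions of the first n bits inside the ambient separable space. -/
noncomputable def JB (n : ℕ) : ((Fin n → Bool) → ℝ) →ₗᵢ[ℝ] Big where
  toFun f := ⟨J n f, J_mem n f⟩
  map_add' f g := Subtype.ext ((J n).map_add f g)
  map_smul' c f := Subtype.ext ((J n).map_smul c f)
  norm_map' f := (J n).norm_map f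

/-- The finite levels. -/
noncomputable def level (n : ℕ) : Submodule ℝ Big := LinearMap.range (JB n).toLinearMap

lemma JB_apply (n : ℕ) (f : (Fin n → Bool) → ℝ) (γ : ℕ → Bool) :
    ((JB n f : Amb) : (ℕ → Bool) → ℝ) γ = f (fun i => γ i) := rfl

lemma level_mono : Monotone level := by
  intro m n hmn
  rintro _ ⟨f, rfl⟩
  refine ⟨fun w => f (fun i => w (Fin.castLE hmn i)), ?_⟩
  apply Subtype.ext
  ext γ
  rfl

lemma level_iso (n : ℕ) : ∃ k : ℕ, Nonempty (level n ≃ₗᵢ[ℝ] (Fin k → ℝ)) := by
  refine ⟨Fintype.card (Fin n → Bool), ⟨(JB n).equivRange.symm.trans ?_⟩⟩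
  exact
    { toLinearEquiv := LinearEquiv.funCongrLeft ℝ ℝ (Fintype.equivFin (Fin n → Bool)).symm
      norm_map' := fun f => by
        apply le_antisymm
        · rw [pi_norm_le_iff_of_nonneg (norm_nonneg _)]
          intro i
          exact norm_le_pi_norm f _
        · rw [pi_norm_le_iff_of_nonneg (norm_nonneg _)]
          intro w
          have := norm_le_pi_norm (LinearEquiv.funCongrLeft ℝ ℝ
            (Fintype.equivFin (Fin n → Bool)).symm f) (Fintype.equivFin _ w)
          simpa [LinearEquiv.funCongrLeft_apply, LinearMap.funLeft_apply] using this }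

/-- The subspace: closure of the union of the levels. -/
noncomputable def XSub : Submodule ℝ Big := (⨆ n, level n).topologicalClosure

lemma XSub_coe : (XSub : Set Big) = closure (⋃ n, (level n : Set Big)) := by
  rw [XSub, Submodule.topologicalClosure_coe,
    Submodule.coe_iSup_of_directed _ level_mono.directed_le]

/-- The jump functions inside the ambient separable space. -/
noncomputable def jumpB (n : ℕ) (q : ℕ → Bool) (hq : ∀ i, n ≤ i → q i = false) : Big :=
  ⟨jump n q, by
    apply Submodule.le_topologicalClosure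
    apply Submodule.subset_span
    refine Or.inr (Set.mem_iUnion.mpr ⟨n, Set.mem_iUnion.mpr ⟨fun i => q i, ?_⟩⟩)
    have : q = pad (fun i : Fin n => q i) := by
      funext i
      unfold pad
      split
      · rfl
      · exact hq i (by omega)
    exact congrArg (jump n) this⟩

lemma jumpB_apply (n : ℕ) (q : ℕ → Bool) (hq : ∀ i, n ≤ i → q i = false) (γ : ℕ → Bool) :
    ((jumpB n q hq : Amb) : (ℕ → Bool) → ℝ) γ = (jump n q : (ℕ → Bool) → ℝ) γ := rfl

/-- Raising the stage by two changes a jump by an element of the subspace. -/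
lemma jumpB_step (n : ℕ) (q : ℕ → Bool) (hq : ∀ i, n ≤ i → q i = false)
    (hq' : ∀ i, n + 2 ≤ i → q i = false) :
    jumpB n q hq - jumpB (n + 2) q hq' ∈ level (n + 1) := by
  classical
  refine ⟨fun w => if (∀ i : Fin n, w i.castSucc = q i) ∧ w (Fin.last n) = true then 1 else 0, ?_⟩
  apply Subtype.ext
  ext γ
  show (if (∀ i : Fin n, γ i = q i) ∧ γ n = true then (1:ℝ) else 0) =
    (jump n q : (ℕ → Bool) → ℝ) γ - (jump (n + 2) q : (ℕ → Bool) → ℝ) γ
  rw [jump_apply, jump_apply]
  by_cases hA : (∀ i : Fin n, γ i = q i) ∧ γ n = true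
  · have h1 : ∃ j, (∀ i < n + 2 * j, γ i = q i) ∧ γ (n + 2 * j) = true :=
      ⟨0, fun i hi => hA.1 ⟨i, by omega⟩, by simpa using hA.2⟩
    have h2 : ¬ ∃ j, (∀ i < n + 2 + 2 * j, γ i = q i) ∧ γ (n + 2 + 2 * j) = true := by
      rintro ⟨j, hj, -⟩
      have := hj n (by omega)
      rw [hA.2, hq n le_rfl] at this
      exact Bool.noConfusion this
    simp [hA, h1, h2]
  · have h : (∃ j, (∀ i < n + 2 * j, γ i = q i) ∧ γ (n + 2 * j) = true) ↔
        ∃ j, (∀ i < n + 2 + 2 * j, γ i = q i) ∧ γ (n + 2 + 2 * j) = true := by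
      constructor
      · rintro ⟨j, hj, ht⟩
        rcases j with _ | j
        · exact absurd ⟨fun i : Fin n => hj i (by omega), by simpa using ht⟩ hA
        · refine ⟨j, fun i hi => hj i (by omega), ?_⟩
          rwa [show n + 2 + 2 * j = n + 2 * (j + 1) by omega]
      · rintro ⟨j, hj, ht⟩
        refine ⟨j + 1, fun i hi => hj i (by omega), ?_⟩
        rwa [show n + 2 * (j + 1) = n + 2 + 2 * j by omega]
    simp only [h]
    rw [if_neg hA, sub_self]

lemma jumpB_shift (n : ℕ) (q : ℕ → Bool) (hq : ∀ i, n ≤ i → q i = false) :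
    ∀ N, jumpB n q hq - jumpB (n + 2 * N) q (fun i hi => hq i (by omega)) ∈ XSub := by
  intro N
  induction N with
  | zero =>
    have : jumpB (n + 2 * 0) q (fun i hi => hq i (by omega)) = jumpB n q hq := rfl
    rw [this, sub_self]
    exact XSub.zero_mem
  | succ N ih =>
    have h := Submodule.le_topologicalClosure _ (Submodule.mem_iSup_of_mem (n + 2 * N + 1)
      (jumpB_step (n + 2 * N) q (fun i hi => hq i (by omega)) (fun i hi => hq i (by omega))))
    have hs := XSub.add_mem ih h
    rw [sub_add_sub_cancel] at hs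
    exact hs

/-- The quantitative core: a map killing the subspace and moving points along it is unbounded. -/
lemma growth (T : Big →L[ℝ] Big) (h0 : ∀ x ∈ XSub, T x = 0) (h1 : ∀ y, T y - y ∈ XSub) :
    ∀ (k : ℕ) (n : ℕ) (q : ℕ → Bool), (∀ i, n ≤ i → q i = false) →
    ∃ (y : Big) (γ : ℕ → Bool), (∀ i < n, γ i = q i) ∧
      (∀ δ, |((y : Amb) : (ℕ → Bool) → ℝ) δ| ≤ 1) ∧
      (∀ δ, (∃ i < n, δ i ≠ q i) → ((y : Amb) : (ℕ → Bool) → ℝ) δ = 0) ∧
      (2 / 5 : ℝ) * k ≤ ((T y : Amb) : (ℕ → Bool) → ℝ) γ := by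
  intro k
  induction k with
  | zero =>
    intro n q _
    exact ⟨0, q, fun i _ => rfl, fun δ => by simp, fun δ _ => by simp, by simp⟩
  | succ k ih =>
    intro n q hq
    set u := jumpB n q hq with hu
    have hx : u - T u ∈ (XSub : Set Big) := by
      have := XSub.neg_mem (h1 u)
      rwa [neg_sub] at this
    rw [XSub_coe] at hx
    obtain ⟨z, hz, hzd⟩ := Metric.mem_closure_iff.mp hx (1 / 10) (by norm_num)
    obtain ⟨m, hm⟩ := Set.mem_iUnion.mp hz
    obtain ⟨f, rfl⟩ := hm
    set c := f (fun i => q i) with hc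
    have happ : ∀ δ : ℕ → Bool,
        |(jump n q : (ℕ → Bool) → ℝ) δ - ((T u : Amb) : (ℕ → Bool) → ℝ) δ - f (fun i => δ i)| ≤ 1 / 10 := by
      intro δ
      rw [dist_eq_norm] at hzd
      have h := lp.norm_apply_le_norm ENNReal.top_ne_zero ((u - T u - JB m f : Big) : Amb) δ
      have : ‖((u - T u - JB m f : Big) : Amb)‖ ≤ 1 / 10 := le_of_lt hzd
      calc _ = ‖((u - T u - JB m f : Big) : Amb) δ‖ := rfl
        _ ≤ _ := h.trans this
    let J0 := m
    obtain ⟨p, hp1, s, hs, hbig⟩ : ∃ p, (p = n + 2 * J0 ∨ p = n + 2 * J0 + 1) ∧ ∃ s : ℝ, |s| ≤ 1 ∧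
        ∀ δ : ℕ → Bool, (∀ i < p, δ i = q i) → δ p = true →
          (2 / 5 : ℝ) ≤ s * ((T u : Amb) : (ℕ → Bool) → ℝ) δ := by
      have hfc : ∀ δ : ℕ → Bool, (∀ i < n + 2 * J0, δ i = q i) → f (fun i => δ i) = c := by
        intro δ hδ
        apply congrArg
        funext i
        exact hδ i (by have := i.2; omega)
      rcases le_total c (1 / 2) with hle | hge
      · refine ⟨n + 2 * J0, Or.inl rfl, 1, by norm_num, fun δ hδ ht => ?_⟩
        have e1 : (jump n q : (ℕ → Bool) → ℝ) δ = 1 := by
          rw [jump_apply, if_pos ⟨J0, hδ, ht⟩]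
        have := happ δ
        rw [e1, hfc δ hδ, abs_le] at this
        linarith [this.1, this.2]
      · refine ⟨n + 2 * J0 + 1, Or.inr rfl, -1, by norm_num, fun δ hδ ht => ?_⟩
        have e0 : (jump n q : (ℕ → Bool) → ℝ) δ = 0 := by
          rw [jump_apply, if_neg]
          rintro ⟨j, hj, hjt⟩
          rcases le_or_gt j J0 with hjJ | hjJ
          · rw [hδ _ (by omega), hq _ (by omega)] at hjt
            exact Bool.noConfusion hjt
          · have := hj (n + 2 * J0 + 1) (by omega)
            rw [ht, hq _ (by omega)] at this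
            exact Bool.noConfusion this
        have := happ δ
        rw [e0, hfc δ (fun i hi => hδ i (by omega)), abs_le] at this
        linarith [this.1, this.2]
    let q' := Function.update q p true
    have hq' : ∀ i, p + 1 ≤ i → q' i = false := by
      intro i hi
      show Function.update q p true i = false
      rw [Function.update_of_ne (by omega)]
      exact hq i (by omega)
    obtain ⟨y, γ, hγ, hy1, hy0, hyT⟩ := ih (p + 1) q' hq'
    let v := jumpB (n + 2 * (J0 + 1)) q (fun i hi => hq i (by omega))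
    have hTv : T v = T u := by
      have := h0 _ (jumpB_shift n q hq (J0 + 1))
      rw [map_sub, sub_eq_zero] at this
      exact this.symm
    have hvsupp : ∀ δ : ℕ → Bool, (jump (n + 2 * (J0 + 1)) q : (ℕ → Bool) → ℝ) δ ≠ 0 →
        ∀ i < n + 2 * (J0 + 1), δ i = q i := by
      intro δ hδ i hi
      rw [jump_apply] at hδ
      by_contra hne
      apply hδ
      rw [if_neg]
      rintro ⟨j, hj, -⟩
      exact hne (hj i (by omega))
    have hvle : ∀ δ : ℕ → Bool, |(jump (n + 2 * (J0 + 1)) q : (ℕ → Bool) → ℝ) δ| ≤ 1 := by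
      intro δ; rw [jump_apply]; split <;> simp
    have hγp : ∀ i < p, γ i = q i := by
      intro i hi
      rw [hγ i (by omega)]
      exact Function.update_of_ne (by omega) _ _
    have hγt : γ p = true := by
      rw [hγ p (by omega)]
      exact Function.update_self _ _ _
    refine ⟨y + s • v, γ, fun i hi => hγp i (by omega), fun δ => ?_, fun δ hδ => ?_, ?_⟩
    · show |((y : Amb) : (ℕ → Bool) → ℝ) δ + s * (jump (n + 2 * (J0 + 1)) q : (ℕ → Bool) → ℝ) δ| ≤ 1
      by_cases hv : (jump (n + 2 * (J0 + 1)) q : (ℕ → Bool) → ℝ) δ = 0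
      · rw [hv, mul_zero, add_zero]; exact hy1 δ
      · have : ((y : Amb) : (ℕ → Bool) → ℝ) δ = 0 := by
          apply hy0
          refine ⟨p, by omega, ?_⟩
          rw [hvsupp δ hv p (by omega), hq p (by omega)]
          show false ≠ Function.update q p true p
          simp
        rw [this, zero_add, abs_mul]
        exact (mul_le_mul hs (hvle δ) (abs_nonneg _) zero_le_one).trans (le_of_eq (one_mul 1))
    · obtain ⟨i, hi, hne⟩ := hδ
      show ((y : Amb) : (ℕ → Bool) → ℝ) δ + s * (jump (n + 2 * (J0 + 1)) q : (ℕ → Bool) → ℝ) δ = 0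
      have hy' : ((y : Amb) : (ℕ → Bool) → ℝ) δ = 0 := by
        apply hy0
        refine ⟨i, by omega, ?_⟩
        show δ i ≠ Function.update q p true i
        rw [Function.update_of_ne (by omega)]
        exact hne
      have hv : (jump (n + 2 * (J0 + 1)) q : (ℕ → Bool) → ℝ) δ = 0 := by
        by_contra h
        exact hne (hvsupp δ h i (by omega))
      rw [hy', hv, mul_zero, add_zero]
    · rw [map_add, map_smul, hTv]
      show (2 / 5 : ℝ) * ((k + 1 : ℕ) : ℝ) ≤
        ((T y : Amb) : (ℕ → Bool) → ℝ) γ + s * ((T u : Amb) : (ℕ → Bool) → ℝ) γ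
      have := hbig γ hγp hγt
      push_cast
      linarith

theorem XSub_not_complemented : ¬ Submodule.ClosedComplemented XSub := by
  rintro ⟨P, hP⟩
  let T : Big →L[ℝ] Big := ContinuousLinearMap.id ℝ Big - XSub.subtypeL.comp P
  have h0 : ∀ x ∈ XSub, T x = 0 := by
    intro x hx
    show x - ((P x : XSub) : Big) = 0
    rw [show P x = ⟨x, hx⟩ from hP ⟨x, hx⟩]
    simp
  have h1 : ∀ y, T y - y ∈ XSub := by
    intro y
    show (y - ((P y : XSub) : Big)) - y ∈ XSub
    simp
  obtain ⟨k, hk⟩ := exists_nat_gt (‖T‖ * (5 / 2))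
  obtain ⟨y, γ, -, hy1, -, hyT⟩ := growth T h0 h1 k 0 (fun _ => false) (fun _ _ => rfl)
  have hy : ‖y‖ ≤ 1 := lp.norm_le_of_forall_le (f := (y : Amb)) zero_le_one hy1
  have := lp.norm_apply_le_norm ENNReal.top_ne_zero (T y : Amb) γ
  have h2 : ((T y : Amb) : (ℕ → Bool) → ℝ) γ ≤ ‖T‖ :=
    (le_abs_self _).trans (this.trans ((T.le_opNorm y).trans (mul_le_of_le_one_right (norm_nonneg T) hy)))
  linarith

end Vale.Agent.P124
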