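import Mathlib

/-!
Lipschitz retraction onto the closure of an increasing union of
finite-dimensional sup-norm spaces.
-/

namespace Vale.Agent.P124

open Filter Topology

/-- Clip a real number to the interval with centre c and radius rho. -/
noncomputable def clip (a c rho : ℝ) : ℝ := max (c - rho) (min (c + rho) a)

lemma clip_lip (a c rho a' c' rho' : ℝ) :
    |clip a c rho - clip a' c' rho'| ≤ max |a - a'| (|c - c'| + |rho - rho'|) := by
  have h1 : |(c - rho) - (c' - rho')| ≤ |c - c'| + |rho - rho'| := by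
    have := abs_sub (c - c') (rho - rho')
    calc |(c - rho) - (c' - rho')| = |(c - c') - (rho - rho')| := by ring_nf
      _ ≤ _ := this
  have h2 : |(c + rho) - (c' + rho')| ≤ |c - c'| + |rho - rho'| := by
    calc |(c + rho) - (c' + rho')| = |(c - c') + (rho - rho')| := by ring_nf
      _ ≤ _ := abs_add_le _ _
  have hmin : |min (c + rho) a - min (c' + rho') a'| ≤
      max |a - a'| (|c - c'| + |rho - rho'|) :=
    (abs_min_sub_min_le_max _ _ _ _).trans
      (max_le (h2.trans (le_max_right _ _)) (le_max_left _ _))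
  exact (abs_max_sub_max_le_max _ _ _ _).trans
    (max_le (h1.trans (le_max_right _ _)) hmin)

lemma clip_near (a c rho : ℝ) (hr : 0 ≤ rho) : |clip a c rho - c| ≤ rho := by
  unfold clip
  rw [abs_le]
  constructor
  · linarith [le_max_left (c - rho) (min (c + rho) a)]
  · have : max (c - rho) (min (c + rho) a) ≤ c + rho :=
      max_le (by linarith) (min_le_left _ _)
    linarith

lemma clip_toward (a b c rho : ℝ) (hb : |c - b| ≤ rho) :
    |clip a c rho - b| ≤ |a - b| := by
  have hb' := abs_le.mp hb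
  have h1 : b = clip b c rho := by
    unfold clip
    rw [min_eq_right (by linarith [hb'.1]), max_eq_right (by linarith [hb'.2])]
  have hp := clip_lip a c rho b c rho
  rw [← h1] at hp
  simpa using hp

lemma clip_fix (a c rho : ℝ) (h : |a - c| ≤ rho) : clip a c rho = a := by
  have h' := abs_le.mp h
  unfold clip
  rw [min_eq_right (by linarith [h'.2]), max_eq_right (by linarith [h'.1])]

variable {Y : Type*} [NormedAddCommGroup Y] [NormedSpace ℝ Y]

/-- A sup-norm space is the range of a 1-Lipschitz retraction. -/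
lemma exists_coord (E : Submodule ℝ Y) {k : ℕ} (φ : E ≃ₗᵢ[ℝ] (Fin k → ℝ)) :
    ∃ P : Y → E, (∀ x : E, P (x : Y) = x) ∧ ∀ y z, ‖P y - P z‖ ≤ ‖y - z‖ := by
  have hex : ∀ i : Fin k, ∃ g : StrongDual ℝ Y, (∀ x : E, g (x : Y) = φ x i) ∧ ‖g‖ ≤ 1 := by
    intro i
    let f : StrongDual ℝ E := LinearMap.mkContinuous
      ((LinearMap.proj i).comp φ.toLinearEquiv.toLinearMap) 1 (fun x => by
        have := norm_le_pi_norm (φ x) i
        simpa using this)
    obtain ⟨g, hg, hn⟩ := exists_extension_norm_eq E f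
    refine ⟨g, fun x => ?_, ?_⟩
    · rw [hg x]; rfl
    · rw [hn]; exact LinearMap.mkContinuous_norm_le _ zero_le_one _
  choose g hg hn using hex
  refine ⟨fun y => φ.symm (fun i => g i y), fun x => ?_, fun y z => ?_⟩
  · have : (fun i => g i (x : Y)) = φ x := funext fun i => hg i x
    simp [this]
  · rw [← map_sub, LinearIsometryEquiv.norm_map, pi_norm_le_iff_of_nonneg (norm_nonneg _)]
    intro i
    have := (g i).le_opNorm (y - z)
    rw [Pi.sub_apply, ← map_sub]
    exact this.trans (mul_le_of_le_one_left (norm_nonneg _) (hn i))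

theorem exists_retraction (E : ℕ → Submodule ℝ Y) (hE : Monotone E)
    (hiso : ∀ n, ∃ k : ℕ, Nonempty (E n ≃ₗᵢ[ℝ] (Fin k → ℝ))) :
    ∃ r : Y → Y, LipschitzWith 91 r ∧
      (∀ y, r y ∈ closure (⋃ n, (E n : Set Y))) ∧
      ∀ x ∈ closure (⋃ n, (E n : Set Y)), r x = x := by
  choose k φ' using hiso
  let φ : ∀ n, E n ≃ₗᵢ[ℝ] (Fin (k n) → ℝ) := fun n => (φ' n).some
  choose P hP hPl using fun n => exists_coord (E n) (φ n)
  set S : Set Y := ⋃ n, (E n : Set Y) with hS
  let d : Y → ℝ := fun y => Metric.infDist y S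
  let δ : ℕ → Y → ℝ := fun n y => Metric.infDist y (E n : Set Y)
  let ρ : ℕ → Y → ℝ := fun n y =>
    10 * d y + 20 * max 0 (min (3 * d y - δ n y) (d y))
  have hd0 : ∀ y, 0 ≤ d y := fun y => Metric.infDist_nonneg
  have hρ0 : ∀ n y, 10 * d y ≤ ρ n y := by
    intro n y
    have := le_max_left 0 (min (3 * d y - δ n y) (d y))
    simp only [ρ]; linarith
  have hρlip : ∀ n y z, |ρ n y - ρ n z| ≤ 90 * ‖y - z‖ := by
    intro n y z
    have hd : |d y - d z| ≤ ‖y - z‖ := by
      have := (Metric.lipschitz_infDist_pt S).dist_le_mul y z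
      simpa [Real.dist_eq, dist_eq_norm] using this
    have hδ : |δ n y - δ n z| ≤ ‖y - z‖ := by
      have := (Metric.lipschitz_infDist_pt (E n : Set Y)).dist_le_mul y z
      simpa [Real.dist_eq, dist_eq_norm] using this
    set N := ‖y - z‖
    have hm : |max 0 (min (3 * d y - δ n y) (d y)) - max 0 (min (3 * d z - δ n z) (d z))| ≤ 4 * N := by
      refine (abs_max_sub_max_le_max _ _ _ _).trans (max_le ?_ ?_)
      · rw [sub_self, abs_zero]; positivity
      · refine (abs_min_sub_min_le_max _ _ _ _).trans (max_le ?_ ?_)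
        · rw [abs_le] at hd hδ ⊢; constructor <;> linarith [hd.1, hd.2, hδ.1, hδ.2]
        · linarith [abs_nonneg (d y - d z)]
    simp only [ρ]
    rw [abs_le] at hd hm ⊢
    constructor <;> linarith [hd.1, hd.2, hm.1, hm.2]
  let g : ∀ n, Y → E n := fun n => Nat.rec (motive := fun n => Y → E n) (P 0)
    (fun n prev y => (φ (n + 1)).symm (fun i =>
      clip (φ (n + 1) ⟨(prev y : Y), hE (Nat.le_succ n) (prev y).2⟩ i)
        (φ (n + 1) (P (n + 1) y) i) (ρ n y))) n
  let up : ∀ n, E n → E (n + 1) := fun n x => ⟨(x : Y), hE (Nat.le_succ n) x.2⟩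
  have hg : ∀ n y i, φ (n + 1) (g (n + 1) y) i =
      clip (φ (n + 1) (up n (g n y)) i) (φ (n + 1) (P (n + 1) y) i) (ρ n y) := by
    intro n y i
    exact congrFun ((φ (n + 1)).apply_symm_apply _) i
  have hcoord : ∀ n (a b : E n) (i : Fin (k n)), |φ n a i - φ n b i| ≤ ‖a - b‖ := by
    intro n a b i
    rw [← (φ n).norm_map (a - b), map_sub, ← Real.norm_eq_abs]
    exact norm_le_pi_norm (φ n a - φ n b) i
  have hnormle : ∀ n (a b : E n) (C : ℝ), 0 ≤ C → (∀ i, |φ n a i - φ n b i| ≤ C) → ‖a - b‖ ≤ C := by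
    intro n a b C hC h
    rw [← (φ n).norm_map, pi_norm_le_iff_of_nonneg hC]
    intro i
    simpa [map_sub, Real.norm_eq_abs] using h i
  have hglip : ∀ n y z, ‖g n y - g n z‖ ≤ 91 * ‖y - z‖ := by
    intro n
    induction n with
    | zero =>
      intro y z
      exact (hPl 0 y z).trans (by linarith [norm_nonneg (y - z)])
    | succ n ih =>
      intro y z
      refine hnormle _ _ _ _ (by positivity) (fun i => ?_)
      rw [hg, hg]
      refine (clip_lip _ _ _ _ _ _).trans (max_le ?_ ?_)
      · exact (hcoord _ _ _ i).trans (ih y z)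
      · linarith [(hcoord _ (P (n + 1) y) (P (n + 1) z) i).trans (hPl (n + 1) y z), hρlip n y z]
  have hclo : ∀ y, y ∈ closure S ↔ d y = 0 := by
    intro y
    exact Metric.mem_closure_iff_infDist_zero ⟨0, Set.mem_iUnion.mpr ⟨0, (E 0).zero_mem⟩⟩
  have hfix : ∀ y, y ∈ closure S → Tendsto (fun n => ((g n y : E n) : Y)) atTop (𝓝 y) := by
    intro y hy
    rw [Metric.tendsto_atTop]
    intro ε hε
    obtain ⟨q, hq, hqd⟩ := Metric.mem_closure_iff.mp hy (ε / 2) (by linarith)
    obtain ⟨n, hn⟩ := Set.mem_iUnion.mp hq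
    refine ⟨n + 1, fun m hm => ?_⟩
    obtain ⟨m', rfl⟩ : ∃ m', m = m' + 1 := ⟨m - 1, by omega⟩
    have hdy : d y = 0 := (hclo y).mp hy
    have hρz : ρ m' y = 0 := by
      have hδ0 : 0 ≤ δ m' y := Metric.infDist_nonneg
      simp only [ρ, hdy]
      simp [hδ0]
    have heq : g (m' + 1) y = P (m' + 1) y := by
      apply (φ (m' + 1)).injective
      funext i
      rw [hg, hρz]
      simp [clip]
    have hqm : q ∈ E (m' + 1) := hE (by omega) hn
    have h1 : ‖P (m' + 1) y - ⟨q, hqm⟩‖ ≤ ‖y - q‖ := by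
      have := hPl (m' + 1) y q
      rwa [hP (m' + 1) ⟨q, hqm⟩] at this
    have h1' : ‖((P (m' + 1) y : E (m' + 1)) : Y) - q‖ ≤ ‖y - q‖ := h1
    rw [dist_eq_norm] at hqd ⊢
    rw [heq]
    calc ‖((P (m' + 1) y : E (m' + 1)) : Y) - y‖
        ≤ ‖((P (m' + 1) y : E (m' + 1)) : Y) - q‖ + ‖q - y‖ := norm_sub_le_norm_sub_add_norm_sub _ _ _
      _ < ε := by rw [norm_sub_rev q y]; linarith
  have hstable : ∀ y, d y ≠ 0 → ∃ N, ∀ m ≥ N, ((g m y : E m) : Y) = ((g N y : E N) : Y) := by
    intro y hy
    have hdy : 0 < d y := lt_of_le_of_ne (hd0 y) (Ne.symm hy)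
    have hne : S.Nonempty := ⟨0, Set.mem_iUnion.mpr ⟨0, (E 0).zero_mem⟩⟩
    have hex : ∀ t : ℝ, d y < t → ∃ n, ∃ p ∈ E n, ‖y - p‖ < t := by
      intro t ht
      obtain ⟨p, hp, hpd⟩ := (Metric.infDist_lt_iff hne).mp ht
      obtain ⟨n, hn⟩ := Set.mem_iUnion.mp hp
      exact ⟨n, p, hn, by rwa [← dist_eq_norm]⟩
    classical
    have hj := hex (3 * d y) (by linarith)
    set j := Nat.find hj with hjdef
    obtain ⟨p, hpj, hpd⟩ := Nat.find_spec hj
    have hPp : ∀ m (hm : p ∈ E m), ‖P m y - ⟨p, hm⟩‖ ≤ 3 * d y := by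
      intro m hm
      have := hPl m y p
      rw [hP m ⟨p, hm⟩] at this
      linarith
    have hnear : ∀ m, j ≤ m → ‖((g m y : E m) : Y) - p‖ ≤ 13 * d y := by
      intro m hm
      induction m, hm using Nat.le_induction with
      | base =>
        change ‖g j y - (⟨p, hpj⟩ : E j)‖ ≤ _
        have h3 := hPp j hpj
        rcases Nat.eq_zero_or_pos j with h0 | h0
        · have key : ∀ m (hm : p ∈ E m), m = 0 → ‖g m y - (⟨p, hm⟩ : E m)‖ ≤ 13 * d y := by
            intro m hm hm0
            subst hm0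
            have := hPp 0 hm
            change ‖P 0 y - _‖ ≤ _
            linarith
          exact key j hpj h0
        · have key : ∀ i (hm : p ∈ E (i + 1)), i < j → i + 1 = j →
              ‖g (i + 1) y - (⟨p, hm⟩ : E (i + 1))‖ ≤ 13 * d y := by
            intro i hm hij _
            have hmin := Nat.find_min hj hij
            push Not at hmin
            have hδ : 3 * d y ≤ δ i y :=
              (Metric.le_infDist ⟨0, (E i).zero_mem⟩).mpr
                (fun q hq => by rw [dist_eq_norm]; exact hmin q hq)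
            have hρ : ρ i y = 10 * d y := by
              simp only [ρ]
              rw [min_eq_left (by linarith), max_eq_left (by linarith)]
              ring
            refine hnormle _ _ _ _ (by linarith) (fun c => ?_)
            rw [hg, hρ]
            have h1 := clip_near (φ (i + 1) (up i (g i y)) c)
              (φ (i + 1) (P (i + 1) y) c) (10 * d y) (by linarith)
            have h2 := (hcoord _ (P (i + 1) y) ⟨p, hm⟩ c).trans (hPp (i + 1) hm)
            rw [abs_le] at h1 h2 ⊢
            constructor <;> linarith [h1.1, h1.2, h2.1, h2.2]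
          obtain ⟨i, hi⟩ : ∃ i, j = i + 1 := ⟨j - 1, by omega⟩
          have hp' : p ∈ E (i + 1) := hi ▸ hpj
          have := key i hp' (by omega) hi.symm
          have e : ∀ a b, a = b → ((g a y : E a) : Y) = ((g b y : E b) : Y) := by
            rintro a b rfl; rfl
          change ‖((g (i + 1) y : E (i + 1)) : Y) - p‖ ≤ _ at this
          change ‖((g j y : E j) : Y) - p‖ ≤ _
          rwa [e _ _ hi]
      | succ m hm ih =>
        have hpm : p ∈ E (m + 1) := hE (by omega) hpj
        change ‖g (m + 1) y - (⟨p, hpm⟩ : E (m + 1))‖ ≤ _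
        refine hnormle _ _ _ _ (by linarith) (fun c => ?_)
        rw [hg]
        refine (clip_toward _ _ _ _ ?_).trans ?_
        · have := (hcoord _ (P (m + 1) y) ⟨p, hpm⟩ c).trans (hPp (m + 1) hpm)
          linarith [hρ0 m y]
        · exact (hcoord _ (up m (g m y)) ⟨p, hpm⟩ c).trans ih
    obtain ⟨n, q, hq, hqd⟩ := hex (2 * d y) (by linarith)
    refine ⟨max n j, fun m hm => ?_⟩
    induction m, hm using Nat.le_induction with
    | base => rfl
    | succ m hm ih =>
      rw [← ih]
      have hpm : p ∈ E (m + 1) := hE (by omega) hpj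
      have hδ : δ m y ≤ 2 * d y := by
        have := Metric.infDist_le_dist_of_mem (x := y) (hE (show n ≤ m by omega) hq)
        rw [dist_eq_norm] at this
        simp only [δ]; linarith
      have hρ : ρ m y = 30 * d y := by
        simp only [ρ]
        rw [min_eq_right (by linarith), max_eq_right (by linarith)]
        ring
      have : g (m + 1) y = up m (g m y) := by
        apply (φ (m + 1)).injective
        funext c
        rw [hg, hρ]
        apply clip_fix
        have h1 := (hcoord _ (up m (g m y)) ⟨p, hpm⟩ c).trans (hnear m (by omega))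
        have h2 := (hcoord _ (P (m + 1) y) ⟨p, hpm⟩ c).trans (hPp (m + 1) hpm)
        rw [abs_le] at h1 h2 ⊢
        constructor <;> linarith [h1.1, h1.2, h2.1, h2.2]
      rw [this]
  have hlim : ∀ y, ∃ l, Tendsto (fun n => ((g n y : E n) : Y)) atTop (𝓝 l) ∧ l ∈ closure S := by
    intro y
    by_cases hy : d y = 0
    · exact ⟨y, hfix y ((hclo y).mpr hy), (hclo y).mpr hy⟩
    · obtain ⟨N, hN⟩ := hstable y hy
      exact ⟨_, tendsto_atTop_of_eventually_const hN,
        subset_closure (Set.mem_iUnion.mpr ⟨N, (g N y).2⟩)⟩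
  choose r hr hrS using hlim
  refine ⟨r, LipschitzWith.of_dist_le_mul fun y z => ?_, hrS, fun x hx =>
    tendsto_nhds_unique (hr x) (hfix x hx)⟩
  refine le_of_tendsto' ((hr y).dist (hr z)) (fun n => ?_)
  simp only [dist_eq_norm]
  exact hglip n y z

end Vale.Agent.P124
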