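import Mathlib
import Vale.Agent.P124.Retraction
import Vale.Agent.P124.Example

/-!
Two shears carrying a complemented subspace onto an uncomplemented one.
-/

namespace Vale.Agent.P124

open scoped NNReal

variable {Y : Type} [NormedAddCommGroup Y] [NormedSpace ℝ Y]

/-- The two-shear map attached to a map into the subspace. -/
def swapEquiv (X : Submodule ℝ Y) (ρ : Y → X) : (X × Y) ≃ (X × Y) where
  toFun p := (p.1 - ρ (p.2 + (p.1 : Y)), p.2 + (p.1 : Y))
  invFun q := (q.1 + ρ q.2, q.2 - ((q.1 + ρ q.2 : X) : Y))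
  left_inv := fun ⟨x, y⟩ => by simp
  right_inv := fun ⟨a, b⟩ => by simp

lemma swap_lip (X : Submodule ℝ Y) (ρ : Y → X) (hρ : ∀ y z, ‖ρ y - ρ z‖ ≤ 91 * ‖y - z‖) :
    LipschitzWith 200 (swapEquiv X ρ) ∧ AntilipschitzWith 200 (swapEquiv X ρ) := by
  have hf : ∀ p q : X × Y, ‖swapEquiv X ρ p - swapEquiv X ρ q‖ ≤ 200 * ‖p - q‖ := by
    rintro ⟨x, y⟩ ⟨x', y'⟩
    have h1 : ‖x - x'‖ ≤ ‖((x, y) : X × Y) - (x', y')‖ := norm_fst_le (((x, y) : X × Y) - (x', y'))
    have h2 : ‖y - y'‖ ≤ ‖((x, y) : X × Y) - (x', y')‖ := norm_snd_le (((x, y) : X × Y) - (x', y'))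
    set D := ‖((x, y) : X × Y) - (x', y')‖
    have hy : ‖(y + (x : Y)) - (y' + (x' : Y))‖ ≤ 2 * D := by
      rw [add_sub_add_comm]
      refine (norm_add_le _ _).trans ?_
      have : ‖(x : Y) - (x' : Y)‖ = ‖x - x'‖ := rfl
      linarith
    have hr := hρ (y + (x : Y)) (y' + (x' : Y))
    show ‖((x - ρ (y + (x : Y))) - (x' - ρ (y' + (x' : Y))), (y + (x : Y)) - (y' + (x' : Y)))‖ ≤ _
    refine (norm_prod_le_iff.mpr ⟨?_, ?_⟩)
    · rw [sub_sub_sub_comm]
      refine (norm_sub_le _ _).trans ?_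
      linarith [norm_nonneg (x - x')]
    · linarith [norm_nonneg (x - x')]
  have hb : ∀ p q : X × Y, ‖(swapEquiv X ρ).symm p - (swapEquiv X ρ).symm q‖ ≤ 200 * ‖p - q‖ := by
    rintro ⟨a, b⟩ ⟨a', b'⟩
    have h1 : ‖a - a'‖ ≤ ‖((a, b) : X × Y) - (a', b')‖ := norm_fst_le (((a, b) : X × Y) - (a', b'))
    have h2 : ‖b - b'‖ ≤ ‖((a, b) : X × Y) - (a', b')‖ := norm_snd_le (((a, b) : X × Y) - (a', b'))
    set D := ‖((a, b) : X × Y) - (a', b')‖
    have hr := hρ b b'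
    have hx : ‖(a + ρ b) - (a' + ρ b')‖ ≤ 92 * D := by
      rw [add_sub_add_comm]
      refine (norm_add_le _ _).trans ?_
      linarith
    have hx' : ‖((a + ρ b : X) : Y) - ((a' + ρ b' : X) : Y)‖ ≤ 92 * D := hx
    show ‖((a + ρ b) - (a' + ρ b'), (b - ((a + ρ b : X) : Y)) - (b' - ((a' + ρ b' : X) : Y)))‖ ≤ _
    refine (norm_prod_le_iff.mpr ⟨by linarith [norm_nonneg (a - a')], ?_⟩)
    rw [sub_sub_sub_comm]
    refine (norm_sub_le _ _).trans ?_
    linarith [norm_nonneg (a - a')]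
  refine ⟨LipschitzWith.of_dist_le_mul fun p q => ?_, AntilipschitzWith.of_le_mul_dist fun p q => ?_⟩
  · simpa [dist_eq_norm] using hf p q
  · have := hb (swapEquiv X ρ p) (swapEquiv X ρ q)
    simpa [dist_eq_norm] using this

theorem relative_pair (X : Submodule ℝ Y) (hcl : IsClosed (X : Set Y)) (r : Y → Y)
    (hrl : LipschitzWith 91 r) (hrS : ∀ y, r y ∈ X) (hrx : ∀ x ∈ X, r x = x)
    (hX : ¬ X.ClosedComplemented) [CompleteSpace Y] [TopologicalSpace.SeparableSpace Y] :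
    ∃ (Z : Type) (_ : NormedAddCommGroup Z) (_ : NormedSpace ℝ Z),
      CompleteSpace Z ∧ TopologicalSpace.SeparableSpace Z ∧
      ∃ (A B : Submodule ℝ Z) (f : Z ≃ Z),
        IsClosed (A : Set Z) ∧ IsClosed (B : Set Z) ∧
        A.ClosedComplemented ∧ ¬ B.ClosedComplemented ∧
        LipschitzWith 200 f ∧ AntilipschitzWith 200 f ∧
        f '' (A : Set Z) = (B : Set Z) ∧
        (∀ x ∈ A, ∀ y ∈ A, f (x + y) = f x + f y) ∧
        ∀ (c : ℝ), ∀ x ∈ A, f (c • x) = c • f x := by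
  let ρ : Y → X := fun y => ⟨r y, hrS y⟩
  have hρ : ∀ y z, ‖ρ y - ρ z‖ ≤ 91 * ‖y - z‖ := by
    intro y z
    have := hrl.dist_le_mul y z
    simp only [dist_eq_norm] at this
    exact this
  have hρx : ∀ x : X, ρ ((0 : Y) + (x : Y)) = x := fun x => by
    apply Subtype.ext
    show r (0 + (x : Y)) = x
    rw [zero_add]
    exact hrx _ x.2
  have : CompleteSpace X := hcl.completeSpace_coe
  obtain ⟨hl, ha⟩ := swap_lip X ρ hρ
  refine ⟨↥X × Y, inferInstance, inferInstance, inferInstance, inferInstance,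
    Submodule.prod ⊤ ⊥, Submodule.prod ⊥ X, swapEquiv X ρ, ?_, ?_, ?_, ?_, hl, ha, ?_, ?_, ?_⟩
  · rw [Submodule.prod_coe, Submodule.top_coe, Submodule.bot_coe]
    exact isClosed_univ.prod isClosed_singleton
  · rw [Submodule.prod_coe, Submodule.bot_coe]
    exact isClosed_singleton.prod hcl
  · refine ⟨((ContinuousLinearMap.inl ℝ X Y).comp (ContinuousLinearMap.fst ℝ X Y)).codRestrict
      _ (fun p => by simp), ?_⟩
    rintro ⟨⟨x, y⟩, hxy⟩
    apply Subtype.ext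
    have hy : y = 0 := (Submodule.mem_prod.mp hxy).2
    subst hy
    rfl
  · rintro ⟨Q, hQ⟩
    apply hX
    refine ⟨(((ContinuousLinearMap.snd ℝ X Y).comp
      ((Submodule.prod ⊥ X).subtypeL.comp Q)).comp
        (ContinuousLinearMap.inr ℝ X Y)).codRestrict X
          (fun y => (Submodule.mem_prod.mp (Q _).2).2), ?_⟩
    intro x
    apply Subtype.ext
    have hmem : ((0, (x : Y)) : X × Y) ∈ Submodule.prod ⊥ X :=
      Submodule.mem_prod.mpr ⟨Submodule.zero_mem _, x.2⟩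
    have := hQ ⟨_, hmem⟩
    show ((Q ((0, (x : Y)) : X × Y)) : X × Y).2 = x
    rw [this]
  · ext ⟨a, b⟩
    constructor
    · rintro ⟨⟨x, y⟩, hxy, he⟩
      have hy : y = 0 := (Submodule.mem_prod.mp hxy).2
      subst hy
      rw [← he]
      refine Submodule.mem_prod.mpr ⟨?_, ?_⟩
      · show x - ρ (0 + (x : Y)) ∈ (⊥ : Submodule ℝ X)
        rw [hρx, sub_self]; exact Submodule.zero_mem _
      · show (0 : Y) + (x : Y) ∈ X
        rw [zero_add]; exact x.2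
    · intro h
      obtain ⟨ha0, hb⟩ := Submodule.mem_prod.mp h
      refine ⟨(⟨b, hb⟩, 0), Submodule.mem_prod.mpr ⟨trivial, Submodule.zero_mem _⟩, ?_⟩
      have ha0' : a = 0 := ha0
      subst ha0'
      show ((⟨b, hb⟩ : X) - ρ (0 + b), (0 : Y) + b) = _
      rw [hρx ⟨b, hb⟩, sub_self, zero_add]
  · rintro ⟨x, y⟩ hx ⟨x', y'⟩ hx'
    have hy : y = 0 := (Submodule.mem_prod.mp hx).2
    have hy' : y' = 0 := (Submodule.mem_prod.mp hx').2
    subst hy hy'
    show ((x + x') - ρ (((0 : Y) + 0) + ((x + x' : X) : Y)), ((0 : Y) + 0) + ((x + x' : X) : Y)) =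
      (x - ρ (0 + (x : Y)), (0 : Y) + (x : Y)) + (x' - ρ (0 + (x' : Y)), (0 : Y) + (x' : Y))
    simp only [add_zero]
    rw [hρx, hρx, hρx]
    simp
  · rintro c ⟨x, y⟩ hx
    have hy : y = 0 := (Submodule.mem_prod.mp hx).2
    subst hy
    show ((c • x) - ρ ((c • (0 : Y)) + ((c • x : X) : Y)), (c • (0 : Y)) + ((c • x : X) : Y)) =
      c • (x - ρ (0 + (x : Y)), (0 : Y) + (x : Y))
    rw [smul_zero, hρx, hρx]
    simp

end Vale.Agent.P124
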